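import Vale.Agent.P280A30.Rows
import Vale.Agent.P277Z.Slc.DegB

/-!
# Row DEG: the orders of a meromorphic section of a negative line bundle
-/

open scoped Manifold ContDiff Topology
open Filter Set
open Vale.Agent.P272.K Vale.Agent.P285.H281.FD
open Vale.Agent.P277Z (Hol)
open Vale.Agent.P277Z.Slc

set_option linter.unusedSectionVars false

noncomputable section

namespace Vale.Agent.P280A

namespace D49

variable {S : Type} [TopologicalSpace S] [T2Space S] [CompactSpace S] [ChartedSpace (Cm 1) S]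
  [IsManifold 𝓘(ℂ, Cm 1) ω S]

theorem cont {a : S → ℂ} {x : S} (h : Hol 1 a x) : ContinuousAt a x := by
  have h1 := (h _ (at_ch x)).continuousAt.comp ((chartAt (Cm 1) x).continuousAt (at_ch x).2)
  refine h1.congr ?_
  filter_upwards [(chartAt (Cm 1) x).open_source.mem_nhds (at_ch x).2] with y hy
  exact congrArg a ((chartAt (Cm 1) x).left_inv hy)

theorem ord_zero {l : Filter S} [l.NeBot] {z : S → ℂ} {m : ℤ} {c : ℂ} (hz : Tendsto z l (𝓝 0))
    (hc : c ≠ 0) (h : Tendsto (fun y => z y ^ m) l (𝓝 c)) : m = 0 := by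
  by_contra h0
  obtain ⟨n, hn⟩ := m.eq_nat_or_neg
  have h1 : n ≠ 0 := by
    rintro rfl
    exact h0 (by simpa using hn)
  have h2 := hz.pow n
  rw [zero_pow h1] at h2
  rcases hn with rfl | rfl
  · exact hc (tendsto_nhds_unique (by simpa using h) h2)
  · exact inv_ne_zero hc (tendsto_nhds_unique (by simpa using h.inv₀ hc) h2)

theorem hol_g {L : Bd S} (hL : IsLB 1 L) {i j : L.ι} {x : S} (hi : x ∈ L.U i) (hj : x ∈ L.U j) :
    Hol 1 (L.g i j) x := fun e he => (hL.holo i j e x he hi hj).analyticAt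

open Classical in
/-- the line bundle of an effective divisor -/
abbrev Dv (V : S → Set S) (k : S → ℕ) : Bd S where
  ι := S
  U := V
  g p q x := if p = q then 1 else zc p x ^ k p / zc q x ^ k q

theorem dv_self (V : S → Set S) (k : S → ℕ) (p x : S) : (Dv V k).g p p x = 1 := if_pos rfl

theorem dv_ne (V : S → Set S) (k : S → ℕ) {p q : S} (h : p ≠ q) :
    (Dv V k).g p q = fun x => zc p x ^ k p / zc q x ^ k q := funext fun _ => if_neg h

variable {V : S → Set S} {k : S → ℕ}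

theorem t_ne (hs : ∀ p, V p ⊆ (chartAt (Cm 1) p).source) (hk : ∀ p q, q ∈ V p → q ≠ p → k q = 0)
    {p q x : S} (hp : x ∈ V p) (hq : x ∈ V q) (h : p ≠ q) : zc p x ^ k p ≠ 0 := by
  by_cases hx : x = p
  · rw [hk q p (hx ▸ hq) h, pow_zero]
    exact one_ne_zero
  · exact pow_ne_zero _ (zc_ne (hs p hp) hx)

theorem dv_lb (ho : ∀ p, IsOpen (V p)) (hp : ∀ p, p ∈ V p)
    (hs : ∀ p, V p ⊆ (chartAt (Cm 1) p).source) (hk : ∀ p q, q ∈ V p → q ≠ p → k q = 0) :
    IsLB 1 (Dv V k) where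
  isOpen := ho
  cover x := ⟨x, hp x⟩
  holo p q e x he hi hj := by
    by_cases h : p = q
    · subst h
      exact contDiffAt_const.congr_of_eventuallyEq (.of_forall fun _ => dv_self V k p _)
    · rw [dv_ne V k h]
      refine (((zc_hol (hs p hi) e he).fun_pow _).fun_div ((zc_hol (hs q hj) e he).fun_pow _)
        ?_).contDiffAt
      rw [he.left_inv]
      exact t_ne hs hk hj hi (Ne.symm h)
  ne_zero p q x hi hj := by
    by_cases h : p = q
    · subst h
      rw [dv_self V k p x]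
      exact one_ne_zero
    · rw [dv_ne V k h]
      exact div_ne_zero (t_ne hs hk hi hj h) (t_ne hs hk hj hi (Ne.symm h))
  cocycle p q r x hi hj hl := by
    by_cases h : p = q
    · subst h
      rw [dv_self V k p x, one_mul]
    by_cases h' : q = r
    · subst h'
      rw [dv_self V k q x, mul_one]
    have h1 := t_ne hs hk hj hi (Ne.symm h)
    rw [dv_ne V k h, dv_ne V k h']
    by_cases h'' : p = r
    · subst h''
      rw [dv_self V k p x]
      exact (div_mul_div_cancel₀ h1).trans (div_self (t_ne hs hk hi hj h))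
    · rw [dv_ne V k h'']
      exact div_mul_div_cancel₀ h1

variable [ConnectedSpace S]

theorem dv_deg (ho : ∀ p, IsOpen (V p)) (hp : ∀ p, p ∈ V p)
    (hs : ∀ p, V p ⊆ (chartAt (Cm 1) p).source) (hk : ∀ p q, q ∈ V p → q ≠ p → k q = 0)
    (F : Finset S) (hF : ∀ p ∉ F, k p = 0) : deg (Dv V k) = ∑ p ∈ F, (k p : ℝ) := by
  refine deg_ord k F (s := fun (p : S) x => zc p x ^ k p) (dv_lb ho hp hs hk)
    ⟨fun p e x he hi => ((zc_hol (hs p hi) e he).fun_pow _).contDiffAt, fun p q x hi hj => ?_⟩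
    (fun p _ => ⟨p, hp p, fun _ => 1, fun _ _ => analyticAt_const, one_ne_zero,
      .of_forall fun _ => (one_mul _).symm⟩) fun x hx p hi => ?_
  · by_cases h : p = q
    · subst h
      rw [dv_self V k p x, one_mul]
    · rw [dv_ne V k h]
      exact (div_mul_cancel₀ _ (t_ne hs hk hj hi (Ne.symm h))).symm
  · by_cases h : x = p
    · subst h
      change zc x x ^ k x ≠ 0
      rw [hF x hx, pow_zero]
      exact one_ne_zero
    · exact pow_ne_zero _ (zc_ne (hs p hi) h)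

theorem nebot (x : S) : (𝓝[≠] x).NeBot :=
  haveI : Nontrivial S := (ex_ne x).elim fun y h => ⟨y, x, h⟩
  inferInstance

theorem neg_deg {L : Bd S} (hL : IsLB 1 L) (h : P281Z.Pos 1 (P277.Bd.inv L)) : deg L < 0 := by
  obtain ⟨ψ, hψ, hp⟩ := h
  obtain ⟨D, hD, hI, hE⟩ := deg_dens (isLB_inv hL) hψ
  have h1 : ∀ e x, At e x → 0 < D e (e x) := fun e x hx => by
    obtain ⟨i, hi⟩ := hL.cover x
    rw [hE i e x hx hi]
    exact re_pos (hp i e x hx hi)
  obtain ⟨x⟩ : Nonempty S := inferInstance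
  have h2 := pos_of_pos hD (fun e x hx => (h1 e x hx).le) (at_ch x) (h1 _ x (at_ch x))
  rw [hI, deg_inv hL] at h2
  exact neg_pos.1 ((mul_pos_iff_of_pos_left c₀_pos).1 h2)

theorem zp (z : ℂ) (hz : z ≠ 0) (m : ℤ) : z ^ m = z ^ m.toNat / z ^ (-m).toNat := by
  rw [← zpow_natCast, ← zpow_natCast, ← zpow_sub₀ hz, Int.toNat_sub_toNat_neg]

end D49

open D49 in
theorem deg49 : DEG := by
  intro S _ _ _ _ _ _ L s m hL hP hc ho
  have key : ∀ p, ∃ (a : L.ι) (u : S → ℂ) (V : Set S), IsOpen V ∧ p ∈ V ∧ ∀ y ∈ V,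
      y ∈ L.U a ∧ y ∈ (chartAt (Cm 1) p).source ∧ Hol 1 u y ∧ u y ≠ 0 ∧
        (y ≠ p → s a y = u y * zc p y ^ m p) := by
    intro p
    obtain ⟨a, ha, u, u1, u2, u3⟩ := ho p
    have u4 : Hol 1 u p := P277Z.Hol.of_chart (at_ch p) u1
    obtain ⟨V, h1, h2, h3⟩ := eventually_nhds_iff.1
      ((show ∀ᶠ y in 𝓝 p, y ∈ L.U a from (hL.isOpen a).mem_nhds ha).and
        ((show ∀ᶠ y in 𝓝 p, y ∈ (chartAt (Cm 1) p).source from
          (chartAt (Cm 1) p).open_source.mem_nhds (at_ch p).2).and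
          (u4.near.and (((cont u4).eventually_ne u2).and (eventually_nhdsWithin_iff.1 u3)))))
    exact ⟨a, u, V, h2, h3, h1⟩
  choose a u V hV hp h using key
  have hs : ∀ p, V p ⊆ (chartAt (Cm 1) p).source := fun p y hy => (h p y hy).2.1
  have ev : ∀ {p q x}, x ∈ V p → x ∈ V q → ∀ᶠ y in 𝓝[≠] x, y ∈ V p ∧ y ∈ V q ∧ y ≠ p ∧ y ≠ q :=
    fun {p q x} h1 h2 => by
      filter_upwards [mem_nhdsWithin_of_mem_nhds ((hV p).mem_nhds h1),
        mem_nhdsWithin_of_mem_nhds ((hV q).mem_nhds h2),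
        nhdsNE_le_cofinite x (eventually_cofinite_ne p),
        nhdsNE_le_cofinite x (eventually_cofinite_ne q)] with y y1 y2 y3 y4 using ⟨y1, y2, y3, y4⟩
  have hm : ∀ p q, q ∈ V p → q ≠ p → m q = 0 := by
    intro p q hq hne
    have := nebot q
    obtain ⟨a1, a2, a3, a4, -⟩ := h p q hq
    obtain ⟨b1, b2, b3, b4, -⟩ := h q q (hp q)
    have c1 : ContinuousAt (fun y => (u q y)⁻¹ * (L.g (a q) (a p) y * (u p y * zc p y ^ m p))) q :=
      ((cont b3).inv₀ b4).mul ((cont (hol_g hL b1 a1)).mul ((cont a3).mul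
        ((cont (zc_hol a2)).zpow₀ _ (.inl (zc_ne a2 hne)))))
    refine ord_zero (l := 𝓝[≠] q) (z := zc q) ?_ (mul_ne_zero (inv_ne_zero b4)
      (mul_ne_zero (hL.ne_zero _ _ q b1 a1) (mul_ne_zero a4 (zpow_ne_zero (m p) (zc_ne a2 hne)))))
      ((c1.tendsto.mono_left nhdsWithin_le_nhds).congr' ?_)
    · exact zc_self q ▸ (cont (zc_hol b2)).tendsto.mono_left nhdsWithin_le_nhds
    · filter_upwards [ev hq (hp q)] with y ⟨y1, y2, y3, y4⟩
      rw [← (h p y y1).2.2.2.2 y3, ← hc _ _ y (h q y y2).1 (h p y y1).1, (h q y y2).2.2.2.2 y4,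
        inv_mul_cancel_left₀ (h q y y2).2.2.2.1]
  obtain ⟨F, -, hF⟩ := isCompact_univ.elim_nhds_subcover V fun x _ => (hV x).mem_nhds (hp x)
  have hF' : ∀ q ∉ F, m q = 0 := fun q hq => by
    obtain ⟨p, h1, h2⟩ := mem_iUnion₂.1 (hF (mem_univ q))
    exact hm p q h2 fun e => hq (e ▸ h1)
  have hsup : Function.support m ⊆ F := fun q hq => by_contra fun e => hq (hF' q e)
  refine ⟨F.finite_toSet.subset hsup, ?_⟩
  have hk : ∀ p q, q ∈ V p → q ≠ p → (-m q).toNat = 0 := fun p q h1 h2 => by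
    rw [hm p q h1 h2]; rfl
  have hM := dv_lb (k := fun q => (-m q).toNat) hV hp hs hk
  have d1 := dv_deg (k := fun q => (-m q).toNat) hV hp hs hk F fun q hq => by rw [hF' q hq]; rfl
  have hσ : ∀ p, ∀ x ∈ V p, Hol 1 (fun y => u p y * zc p y ^ (m p).toNat) x := fun p x hx e he =>
    ((h p x hx).2.2.1 e he).fun_mul ((zc_hol (hs p hx) e he).fun_pow _)
  have K : ∀ p q x, x ∈ V p → x ∈ V q → u p x * zc p x ^ (m p).toNat = L.g (a p) (a q) x *
      (Dv V fun q => (-m q).toNat).g p q x * (u q x * zc q x ^ (m q).toNat) := by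
    intro p q x h1 h2
    by_cases e : p = q
    · subst e
      rw [dv_self V _ p x, g_self hL (h p x h1).1, one_mul, one_mul]
    have := nebot x
    refine tendsto_nhds_unique_of_eventuallyEq (l := 𝓝[≠] x)
      ((cont (hσ p x h1)).tendsto.mono_left nhdsWithin_le_nhds)
      ((((cont (hol_g hL (h p x h1).1 (h q x h2).1)).mul (cont (hol_g hM h1 h2))).mul
        (cont (hσ q x h2))).tendsto.mono_left nhdsWithin_le_nhds) ?_
    filter_upwards [ev h1 h2] with y ⟨y1, y2, y3, y4⟩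
    have z1 := zc_ne (hs p y1) y3
    have z2 := zc_ne (hs q y2) y4
    have z3 := hc _ _ y (h p y y1).1 (h q y y2).1
    rw [(h p y y1).2.2.2.2 y3, (h q y y2).2.2.2.2 y4, zp _ z1, zp _ z2] at z3
    have z4 := pow_ne_zero (-m p).toNat z1
    have z5 := pow_ne_zero (-m q).toNat z2
    simp only [Pi.mul_apply, if_neg e]
    field_simp at z3 ⊢
    linear_combination z3
  have d2 := deg_ord (fun q => (m q).toNat) F (isLB_mul hL hM)
    (s := fun (i : L.ι × S) x => L.g i.1 (a i.2) x * (u i.2 x * zc i.2 x ^ (m i.2).toNat))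
    ⟨fun i e x he hi => ((hol_g hL hi.1 (h i.2 x hi.2).1 e he).fun_mul
      (hσ i.2 x hi.2 e he)).contDiffAt, fun i j x hi hj => ?_⟩
    (fun p _ => ⟨(a p, p), ⟨(h p p (hp p)).1, hp p⟩, u p, (h p p (hp p)).2.2.1,
      (h p p (hp p)).2.2.2.1, ?_⟩) fun x hx i hi => ?_
  · have d3 := neg_deg hL hP
    rw [deg_mul hL hM, d1] at d2
    rw [finsum_eq_sum_of_support_subset m hsup, ← Int.cast_lt (R := ℝ), Int.cast_sum, Int.cast_zero]
    refine lt_of_eq_of_lt ?_ d3
    rw [eq_sub_of_add_eq d2, ← Finset.sum_sub_distrib]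
    refine Finset.sum_congr rfl fun q _ => ?_
    exact_mod_cast (Int.toNat_sub_toNat_neg (m q)).symm
  · have e1 := hL.cocycle i.1 (a i.2) (a j.2) x hi.1 (h _ x hi.2).1 (h _ x hj.2).1
    have e2 := hL.cocycle i.1 j.1 (a j.2) x hi.1 hj.1 (h _ x hj.2).1
    change _ = L.g i.1 j.1 x * (Dv V fun q => (-m q).toNat).g i.2 j.2 x * _
    rw [K i.2 j.2 x hi.2 hj.2]
    linear_combination (Dv V fun q => (-m q).toNat).g i.2 j.2 x *
      (u j.2 x * zc j.2 x ^ (m j.2).toNat) * (e1 - e2)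
  · filter_upwards [(hV p).mem_nhds (hp p)] with y hy
    exact (congrArg (· * _) (g_self hL (h p y hy).1)).trans (one_mul _)
  · refine mul_ne_zero (hL.ne_zero _ _ x hi.1 (h _ x hi.2).1) (mul_ne_zero (h _ x hi.2).2.2.2.1 ?_)
    by_cases e : x = i.2
    · rw [← e, hF' x hx]
      exact one_ne_zero
    · exact pow_ne_zero _ (zc_ne (hs _ hi.2) e)

end Vale.Agent.P280A
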