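import Vale.Agent.P280B30.Rows
import Vale.Agent.P280D49.Deg
import Vale.Agent.P280Z.Co.Defs

/-!
# Row DEQ: a line bundle of nonzero degree on a curve is positive or negative
-/

open scoped Manifold ContDiff Topology
open Filter Set
open Vale.Agent.P272.K Vale.Agent.P285.H281.FD
open Vale.Agent.P277Z (Hol)
open Vale.Agent.P277Z.Slc
open Vale.Agent.P281Z (Pos Mf)

set_option linter.unusedSectionVars false

noncomputable section

namespace Vale.Agent.P280A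

namespace D49

variable {S : Type} [TopologicalSpace S] [T2Space S] [CompactSpace S] [ConnectedSpace S]
  [ChartedSpace (Cm 1) S] [IsManifold 𝓘(ℂ, Cm 1) ω S]

theorem deg_sum {L : Bd S} {s : L.ι → S → ℂ} {m : S → ℤ} (hL : IsLB 1 L)
    (hc : ∀ a b x, x ∈ L.U a → x ∈ L.U b → s a x = L.g a b x * s b x)
    (ho : ∀ p, ∃ a, p ∈ L.U a ∧ OrdAt (s a) p (m p)) : deg L = ((∑ᶠ p, m p : ℤ) : ℝ) := by
  have key : ∀ p, ∃ (a : L.ι) (u : S → ℂ) (V : Set S), IsOpen V ∧ p ∈ V ∧ ∀ y ∈ V,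
      y ∈ L.U a ∧ y ∈ (chartAt (Cm 1) p).source ∧ Hol 1 u y ∧ u y ≠ 0 ∧
        (y ≠ p → s a y = u y * zc p y ^ m p) := by
    intro p
    obtain ⟨a, ha, u, u1, u2, u3⟩ := ho p
    have u4 : Hol 1 u p := P277Z.Hol.of_chart (at_ch p) u1
    obtain ⟨V, h1, h2, h3⟩ := eventually_nhds_iff.1
      ((show ∀ᶠ y in 𝓝 p, y ∈ L.U a from (hL.isOpen a).mem_nhds ha).and
        ((show ∀ᶠ y in 𝓝 p, y ∈ (chartAt (Cm 1) p).source from
          (chartAt (Cm 1) p).open_source.mem_nhds (at_ch p).2).and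
          (u4.near.and (((cont u4).eventually_ne u2).and (eventually_nhdsWithin_iff.1 u3)))))
    exact ⟨a, u, V, h2, h3, h1⟩
  choose a u V hV hp h using key
  have hs : ∀ p, V p ⊆ (chartAt (Cm 1) p).source := fun p y hy => (h p y hy).2.1
  have ev : ∀ {p q x}, x ∈ V p → x ∈ V q → ∀ᶠ y in 𝓝[≠] x, y ∈ V p ∧ y ∈ V q ∧ y ≠ p ∧ y ≠ q :=
    fun {p q x} h1 h2 => by
      filter_upwards [mem_nhdsWithin_of_mem_nhds ((hV p).mem_nhds h1),
        mem_nhdsWithin_of_mem_nhds ((hV q).mem_nhds h2),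
        nhdsNE_le_cofinite x (eventually_cofinite_ne p),
        nhdsNE_le_cofinite x (eventually_cofinite_ne q)] with y y1 y2 y3 y4 using ⟨y1, y2, y3, y4⟩
  have hm : ∀ p q, q ∈ V p → q ≠ p → m q = 0 := by
    intro p q hq hne
    have := nebot q
    obtain ⟨a1, a2, a3, a4, -⟩ := h p q hq
    obtain ⟨b1, b2, b3, b4, -⟩ := h q q (hp q)
    have c1 : ContinuousAt (fun y => (u q y)⁻¹ * (L.g (a q) (a p) y * (u p y * zc p y ^ m p))) q :=
      ((cont b3).inv₀ b4).mul ((cont (hol_g hL b1 a1)).mul ((cont a3).mul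
        ((cont (zc_hol a2)).zpow₀ _ (.inl (zc_ne a2 hne)))))
    refine ord_zero (l := 𝓝[≠] q) (z := zc q) ?_ (mul_ne_zero (inv_ne_zero b4)
      (mul_ne_zero (hL.ne_zero _ _ q b1 a1) (mul_ne_zero a4 (zpow_ne_zero (m p) (zc_ne a2 hne)))))
      ((c1.tendsto.mono_left nhdsWithin_le_nhds).congr' ?_)
    · exact zc_self q ▸ (cont (zc_hol b2)).tendsto.mono_left nhdsWithin_le_nhds
    · filter_upwards [ev hq (hp q)] with y ⟨y1, y2, y3, y4⟩
      rw [← (h p y y1).2.2.2.2 y3, ← hc _ _ y (h q y y2).1 (h p y y1).1, (h q y y2).2.2.2.2 y4,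
        inv_mul_cancel_left₀ (h q y y2).2.2.2.1]
  obtain ⟨F, -, hF⟩ := isCompact_univ.elim_nhds_subcover V fun x _ => (hV x).mem_nhds (hp x)
  have hF' : ∀ q ∉ F, m q = 0 := fun q hq => by
    obtain ⟨p, h1, h2⟩ := mem_iUnion₂.1 (hF (mem_univ q))
    exact hm p q h2 fun e => hq (e ▸ h1)
  have hsup : Function.support m ⊆ F := fun q hq => by_contra fun e => hq (hF' q e)
  have hk : ∀ p q, q ∈ V p → q ≠ p → (-m q).toNat = 0 := fun p q h1 h2 => by
    rw [hm p q h1 h2]; rfl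
  have hM := dv_lb (k := fun q => (-m q).toNat) hV hp hs hk
  have d1 := dv_deg (k := fun q => (-m q).toNat) hV hp hs hk F fun q hq => by rw [hF' q hq]; rfl
  have hσ : ∀ p, ∀ x ∈ V p, Hol 1 (fun y => u p y * zc p y ^ (m p).toNat) x := fun p x hx e he =>
    ((h p x hx).2.2.1 e he).fun_mul ((zc_hol (hs p hx) e he).fun_pow _)
  have K : ∀ p q x, x ∈ V p → x ∈ V q → u p x * zc p x ^ (m p).toNat = L.g (a p) (a q) x *
      (Dv V fun q => (-m q).toNat).g p q x * (u q x * zc q x ^ (m q).toNat) := by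
    intro p q x h1 h2
    by_cases e : p = q
    · subst e
      rw [dv_self V _ p x, g_self hL (h p x h1).1, one_mul, one_mul]
    have := nebot x
    refine tendsto_nhds_unique_of_eventuallyEq (l := 𝓝[≠] x)
      ((cont (hσ p x h1)).tendsto.mono_left nhdsWithin_le_nhds)
      ((((cont (hol_g hL (h p x h1).1 (h q x h2).1)).mul (cont (hol_g hM h1 h2))).mul
        (cont (hσ q x h2))).tendsto.mono_left nhdsWithin_le_nhds) ?_
    filter_upwards [ev h1 h2] with y ⟨y1, y2, y3, y4⟩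
    have z1 := zc_ne (hs p y1) y3
    have z2 := zc_ne (hs q y2) y4
    have z3 := hc _ _ y (h p y y1).1 (h q y y2).1
    rw [(h p y y1).2.2.2.2 y3, (h q y y2).2.2.2.2 y4, zp _ z1, zp _ z2] at z3
    have z4 := pow_ne_zero (-m p).toNat z1
    have z5 := pow_ne_zero (-m q).toNat z2
    simp only [Pi.mul_apply, if_neg e]
    field_simp at z3 ⊢
    linear_combination z3
  have d2 := deg_ord (fun q => (m q).toNat) F (isLB_mul hL hM)
    (s := fun (i : L.ι × S) x => L.g i.1 (a i.2) x * (u i.2 x * zc i.2 x ^ (m i.2).toNat))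
    ⟨fun i e x he hi => ((hol_g hL hi.1 (h i.2 x hi.2).1 e he).fun_mul
      (hσ i.2 x hi.2 e he)).contDiffAt, fun i j x hi hj => ?_⟩
    (fun p _ => ⟨(a p, p), ⟨(h p p (hp p)).1, hp p⟩, u p, (h p p (hp p)).2.2.1,
      (h p p (hp p)).2.2.2.1, ?_⟩) fun x hx i hi => ?_
  · rw [deg_mul hL hM, d1] at d2
    rw [finsum_eq_sum_of_support_subset m hsup, Int.cast_sum, eq_sub_of_add_eq d2,
      ← Finset.sum_sub_distrib]
    refine Finset.sum_congr rfl fun q _ => ?_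
    exact_mod_cast Int.toNat_sub_toNat_neg (m q)
  · have e1 := hL.cocycle i.1 (a i.2) (a j.2) x hi.1 (h _ x hi.2).1 (h _ x hj.2).1
    have e2 := hL.cocycle i.1 j.1 (a j.2) x hi.1 hj.1 (h _ x hj.2).1
    change _ = L.g i.1 j.1 x * (Dv V fun q => (-m q).toNat).g i.2 j.2 x * _
    rw [K i.2 j.2 x hi.2 hj.2]
    linear_combination (Dv V fun q => (-m q).toNat).g i.2 j.2 x *
      (u j.2 x * zc j.2 x ^ (m j.2).toNat) * (e1 - e2)
  · filter_upwards [(hV p).mem_nhds (hp p)] with y hy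
    exact (congrArg (· * _) (g_self hL (h p y hy).1)).trans (one_mul _)
  · refine mul_ne_zero (hL.ne_zero _ _ x hi.1 (h _ x hi.2).1) (mul_ne_zero (h _ x hi.2).2.2.2.1 ?_)
    by_cases e : x = i.2
    · rw [← e, hF' x hx]
      exact one_ne_zero
    · exact pow_ne_zero _ (zc_ne (hs _ hi.2) e)

theorem ex_pos : ∃ H : Bd S, IsLB 1 H ∧ Pos 1 H := by
  obtain ⟨H, hH, ρ, -, h1, h2, -⟩ := exists_pos (C := S)
  refine ⟨H, hH, ρ, (P285Z.Br.same_toLB H hH).met.1 h1, fun i e x hx hi => ?_⟩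
  have := h2 e x hx
  rwa [P285Z.Br.curv_cv h1 hx (i := i) hi] at this

theorem pos_inv_inv {L : Bd S} (h : Pos 1 (P277.Bd.inv (P277.Bd.inv L))) : Pos 1 L := by
  obtain ⟨ψ, h1, h2⟩ := h
  refine ⟨ψ, ⟨h1.smooth, fun i j x hi hj => ?_⟩, h2⟩
  have := h1.change i j x hi hj
  rwa [show (P277.Bd.inv (P277.Bd.inv L)).g i j x = L.g i j x from inv_inv _] at this

theorem c1_inv {T : P280Z.CT} (hT : T.C1) {V : Mf 1} {L : Bd V.X} (h : IsLB 1 L) :
    T.c1 V (P277.Bd.inv L) = -T.c1 V L := by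
  rw [eq_neg_iff_add_eq_zero, add_comm, ← hT.mul V _ _ h (isLB_inv h)]
  refine hT.triv V _ (fun a x => L.g a.1 a.2 x) (isLB_mul h (isLB_inv h))
    ⟨fun a e x he ha => h.holo a.1 a.2 e x he ha.1 ha.2, fun a b x ha hb => ?_⟩
    fun x a ha => h.ne_zero a.1 a.2 x ha.1 ha.2
  change L.g a.1 a.2 x = L.g a.1 b.1 x * (L.g a.2 b.2 x)⁻¹ * L.g b.1 b.2 x
  rw [mul_right_comm, h.cocycle _ _ _ x ha.1 hb.1 hb.2, ← h.cocycle _ _ _ x ha.1 ha.2 hb.2,
    mul_inv_cancel_right₀ (h.ne_zero _ _ x ha.2 hb.2)]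

theorem curve {T : P280Z.CT} (hT : T.OK) {C : Mf 1} (hc : ConnectedSpace C.X) {H : Bd C.X}
    (h1 : IsLB 1 H) (h2 : Pos 1 H) {M : Bd C.X} (hM : IsLB 1 M) (h : T.int C (T.c1 C M) < 0) :
    Pos 1 (P277.Bd.inv M) := by
  have hw := hT.c1.pos C H h1 h2
  obtain ⟨a, a1, a2⟩ := (hT.ho.hl hw 0 1 rfl).2 _ (hT.c1.deg C M)
  obtain ⟨c, rfl⟩ := hT.rg.h0 C inferInstance a a1
  obtain ⟨x⟩ : Nonempty C.X := inferInstance
  have h3 := hT.po.pos 0 1 x hw hw rfl rfl (by rw [finrank_bot]; exact Nat.zero_le _)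
  rw [pow_zero, one_mul, pow_one] at h3
  rw [pow_one, mul_comm, ← Algebra.smul_def] at a2
  rw [← a2, map_smul, smul_eq_mul] at h
  have h4 : 0 < -c := by
    by_contra k
    exact absurd h (not_lt.2 (mul_nonneg (by linarith) h3.le))
  refine hT.kp C _ (isLB_inv hM) ?_
  rw [c1_inv hT.c1 hM, ← a2, ← neg_smul]
  exact hT.po.smul _ h4 hw

theorem pos_or (hC : P280Z.COH) {L : Bd S} (hL : IsLB 1 L) (h : deg L ≠ 0) :
    Pos 1 L ∨ Pos 1 (P277.Bd.inv L) := by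
  obtain ⟨T, hT⟩ := hC
  obtain ⟨H, hH, hP⟩ := ex_pos (S := S)
  obtain ⟨x⟩ : Nonempty S := inferInstance
  let C : Mf 1 := Mf.mk S
  have cv : ∀ {M : Bd S}, IsLB 1 M → T.int C (T.c1 C M) < 0 → Pos 1 (P277.Bd.inv M) :=
    fun hM k => curve hT (C := C) ‹ConnectedSpace S› hH hP hM k
  have iv : ∀ {M : Bd S}, IsLB 1 M → T.int C (T.c1 C (P277.Bd.inv M)) = -T.int C (T.c1 C M) :=
    fun hM => by rw [c1_inv (V := C) hT.c1 hM, map_neg]
  have hw := hT.c1.pos C H hH hP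
  have h3 := hT.po.pos 0 1 x hw hw rfl rfl (by rw [finrank_bot]; exact Nat.zero_le _)
  rw [pow_zero, one_mul, pow_one] at h3
  have key : ∀ {M : Bd S}, IsLB 1 M → T.int C (T.c1 C M) = 0 → deg M ≤ 0 := by
    intro M hM h0
    by_contra! k
    obtain ⟨n, hn⟩ := exists_nat_ge (deg H / deg M)
    have h4 := isLB_mul (isLB_pow hM n) (isLB_inv hH)
    have h5 := neg_deg h4 (cv h4 (by
      rw [hT.c1.mul C _ _ (isLB_pow hM n) (isLB_inv hH), map_add, hT.c1.pow C _ _ hM, map_smul, h0,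
        smul_zero, zero_add, iv hH]
      exact neg_lt_zero.2 h3))
    rw [deg_mul (isLB_pow hM n) (isLB_inv hH), deg_pow hM, deg_inv hH] at h5
    rw [div_le_iff₀ k] at hn
    linarith
  rcases lt_trichotomy (T.int C (T.c1 C L)) 0 with k | k | k
  · exact .inr (cv hL k)
  · have h6 := key (isLB_inv hL) (by rw [iv hL, k, neg_zero])
    rw [deg_inv hL] at h6
    exact (h (le_antisymm (key hL k) (by linarith))).elim
  · exact .inl (pos_inv_inv (cv (isLB_inv hL) (by rw [iv hL]; exact neg_lt_zero.2 k)))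

end D49

theorem deq49 (hC : P280Z.COH) : DEQ := fun _ _ _ _ _ _ _ _ _ _ hL hc ho h =>
  D49.pos_or hC hL (by rw [D49.deg_sum hL hc ho]; exact_mod_cast h)

end Vale.Agent.P280A
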